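import Vale.Agent.P216.B7.Props

/-!
# P216-B7, row Z2: the cyclic coverings
-/

set_option linter.all false

open Set Filter Topology

namespace Vale.Agent.P216.H539Z

open Vale.Agent.P216.B7

theorem ex_add (r u : ℝ) : ex (r + u) = ex r * ex u := by
  unfold ex
  rw [mul_add, Circle.exp_add]

theorem ex_nat (s : ℕ) (r : ℝ) : ex (s * r) = ex r ^ s := by
  induction s with
  | zero =>
    rw [pow_zero, Nat.cast_zero, zero_mul]
    unfold ex
    rw [mul_zero, Circle.exp_zero]
  | succ s ih =>
    rw [pow_succ, ← ih, ← ex_add]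
    push_cast
    congr 1
    ring

theorem ex_continuous : Continuous ex := by
  unfold ex
  exact Circle.exp.continuous.comp (continuous_const.mul continuous_id)

theorem ex_surj (z : Circle) : ∃ r, ex r = z := by
  obtain ⟨t, rfl⟩ := Circle.exp_surjective z
  refine ⟨t / (2 * Real.pi), ?_⟩
  unfold ex
  congr 1
  have := Real.pi_pos
  field_simp

section

variable {M : Type} [MetricSpace M] (h : C(M, Circle)) (s : ℕ)

theorem isClosed_Msp : IsClosed (Msp h s) :=
  isClosed_eq (continuous_snd.pow s) (h.continuous.comp continuous_fst)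

theorem prs_mem (hs : 1 ≤ s) {p : M × ℝ} (hp : p ∈ Xt h) : prs s p ∈ Msp h s := by
  have hs0 : (s : ℝ) ≠ 0 := by exact_mod_cast (by omega : s ≠ 0)
  show ex (p.2 / s) ^ s = h p.1
  rw [← ex_nat, mul_div_cancel₀ _ hs0]
  exact hp.symm

theorem prs_cont : Continuous (prs s : M × ℝ → M × Circle) :=
  continuous_fst.prodMk (ex_continuous.comp (continuous_snd.div_const _))

theorem prs_image (hs : 1 ≤ s) : prs s '' Xt h = Msp h s := by
  have hs0 : (s : ℝ) ≠ 0 := by exact_mod_cast (by omega : s ≠ 0)
  refine Subset.antisymm ?_ ?_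
  · rintro _ ⟨p, hp, rfl⟩
    exact prs_mem h s hs hp
  · rintro ⟨x, z⟩ hp
    obtain ⟨r, rfl⟩ := ex_surj z
    refine ⟨(x, s * r), ?_, ?_⟩
    · show h x = ex (s * r)
      rw [ex_nat]
      exact (show ex r ^ s = h x from hp).symm
    · show (x, ex (s * r / s)) = (x, ex r)
      rw [mul_div_cancel_left₀ _ hs0]

/-- The local homeomorphism. -/
theorem msp_loc (hs : 1 ≤ s) : IsLocalHomeomorph (fun p : Msp h s => p.1.1) := by
  haveI : NeZero s := ⟨by omega⟩
  have hpow : IsLocalHomeomorph (fun z : Circle => z ^ s) :=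
    (Circle.isQuotientCoveringMap_npow s).isCoveringMap.isLocalHomeomorph
  have hcont : Continuous (fun p : Msp h s => p.1.1) := continuous_fst.comp continuous_subtype_val
  have hopen : IsOpenMap (fun p : Msp h s => p.1.1) := by
    rw [isOpenMap_iff_nhds_le]
    intro p
    obtain ⟨e, he, hee⟩ := hpow p.1.2
    classical
    let σ : M → Msp h s := fun x => if hx : (x, e.symm (h x)) ∈ Msp h s then ⟨_, hx⟩ else p
    have hp : p.1.2 ^ s = h p.1.1 := p.2
    have hee' : ∀ z, e z = z ^ s := fun z => by rw [← hee]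
    have ht : h p.1.1 ∈ e.target := by
      rw [← hp, ← hee']
      exact e.map_source he
    have hev : ∀ᶠ x in 𝓝 p.1.1, h x ∈ e.target :=
      h.continuous.continuousAt.eventually (e.open_target.mem_nhds ht)
    have hmem : ∀ x, h x ∈ e.target → (x, e.symm (h x)) ∈ Msp h s := fun x hx => by
      show e.symm (h x) ^ s = h x
      rw [← hee', e.right_inv hx]
    have hσ : ∀ x, h x ∈ e.target → (σ x).1 = (x, e.symm (h x)) := fun x hx => by
      simp only [σ, dif_pos (hmem x hx)]
    have hσp : σ p.1.1 = p := by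
      apply Subtype.ext
      rw [hσ _ ht, ← hp, ← hee', e.left_inv he]
    have hσc : ContinuousAt σ p.1.1 := by
      rw [Topology.IsEmbedding.subtypeVal.isInducing.continuousAt_iff]
      have hc : ContinuousAt (fun x => (x, e.symm (h x))) p.1.1 :=
        continuousAt_id.prodMk
          ((e.continuousAt_symm ht).comp h.continuous.continuousAt)
      exact hc.congr (hev.mono fun x hx => (hσ x hx).symm)
    have h1 : (fun x => (σ x).1.1) =ᶠ[𝓝 p.1.1] id := hev.mono fun x hx => by
      show (σ x).1.1 = x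
      rw [hσ x hx]
    have h2 : map (fun x => (σ x).1.1) (𝓝 p.1.1) = 𝓝 p.1.1 := by
      rw [Filter.map_congr h1, Filter.map_id]
    calc 𝓝 p.1.1 = map (fun x => (σ x).1.1) (𝓝 p.1.1) := h2.symm
      _ = map (fun q : Msp h s => q.1.1) (map σ (𝓝 p.1.1)) := by rw [Filter.map_map]; rfl
      _ ≤ map (fun q : Msp h s => q.1.1) (𝓝 p) := by
        refine Filter.map_mono ?_
        have := hσc.tendsto
        rwa [hσp] at this
  rw [isLocalHomeomorph_iff_isOpenEmbedding_restrict]
  intro p
  obtain ⟨e, he, hee⟩ := hpow p.1.2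
  have hee' : ∀ z, e z = z ^ s := fun z => by rw [← hee]
  set V : Set (Msp h s) := {q | q.1.2 ∈ e.source} with hV
  have hVo : IsOpen V := e.open_source.preimage (continuous_snd.comp continuous_subtype_val)
  refine ⟨V, hVo.mem_nhds he, ?_⟩
  refine IsOpenEmbedding.of_continuous_injective_isOpenMap (hcont.comp continuous_subtype_val) ?_
    (hopen.restrict hVo)
  rintro ⟨q, hq⟩ ⟨q', hq'⟩ hqq
  have h0 : q.1.1 = q'.1.1 := hqq
  have h1 : q.1.2 = q'.1.2 := by
    refine e.injOn hq hq' ?_
    rw [hee', hee']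
    have e1 : q.1.2 ^ s = h q.1.1 := q.2
    have e2 : q'.1.2 ^ s = h q'.1.1 := q'.2
    rw [e1, e2, h0]
  exact Subtype.ext (Subtype.ext (Prod.ext h0 h1))

/-- The infinite cyclic covering of a cyclic covering. -/
noncomputable def xtHomeo (hs : 1 ≤ s) {N : Type} [MetricSpace N] (φ : N ≃ₜ Msp h s)
    (h' : C(N, Circle)) (hh : ∀ y, h' y = (φ y).1.2) : Xt h' ≃ₜ Xt h where
  toFun p := ⟨((φ p.1.1).1.1, s * p.1.2), by
    have e1 : (φ p.1.1).1.2 ^ s = h (φ p.1.1).1.1 := (φ p.1.1).2
    have e2 : h' p.1.1 = ex p.1.2 := p.2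
    show h (φ p.1.1).1.1 = ex (s * p.1.2)
    rw [ex_nat, ← e2, hh, e1]⟩
  invFun p := ⟨(φ.symm ⟨prs s p.1, prs_mem h s hs p.2⟩, p.1.2 / s), by
    show h' (φ.symm ⟨prs s p.1, prs_mem h s hs p.2⟩) = ex (p.1.2 / s)
    rw [hh, φ.apply_symm_apply]
    rfl⟩
  left_inv p := by
    have hs0 : (s : ℝ) ≠ 0 := by exact_mod_cast (by omega : s ≠ 0)
    have e2 : h' p.1.1 = ex p.1.2 := p.2
    apply Subtype.ext
    refine Prod.ext ?_ ?_
    · show φ.symm ⟨prs s ((φ p.1.1).1.1, s * p.1.2), _⟩ = p.1.1
      rw [Homeomorph.symm_apply_eq]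
      apply Subtype.ext
      refine Prod.ext rfl ?_
      show ex (s * p.1.2 / s) = (φ p.1.1).1.2
      rw [mul_div_cancel_left₀ _ hs0, ← e2, hh]
    · show s * p.1.2 / s = p.1.2
      rw [mul_div_cancel_left₀ _ hs0]
  right_inv p := by
    have hs0 : (s : ℝ) ≠ 0 := by exact_mod_cast (by omega : s ≠ 0)
    apply Subtype.ext
    refine Prod.ext ?_ ?_
    · show (φ (φ.symm ⟨prs s p.1, prs_mem h s hs p.2⟩)).1.1 = p.1.1
      rw [φ.apply_symm_apply]
      rfl
    · show s * (p.1.2 / s) = p.1.2
      rw [mul_div_cancel₀ _ hs0]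
  continuous_toFun := by
    refine Continuous.subtype_mk ?_ _
    exact (continuous_fst.comp (continuous_subtype_val.comp (φ.continuous.comp
      (continuous_fst.comp continuous_subtype_val)))).prodMk
      (continuous_const.mul (continuous_snd.comp continuous_subtype_val))
  continuous_invFun := by
    refine Continuous.subtype_mk ?_ _
    refine (φ.symm.continuous.comp (Continuous.subtype_mk
      ((prs_cont s).comp continuous_subtype_val) _)).prodMk
      ((continuous_snd.comp continuous_subtype_val).div_const _)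

end

/-- **Z2** -/
theorem z2Goal : Z2Goal := by
  intro M _ _ h hsc s hs
  refine ⟨isCompact_iff_compactSpace.1 (isClosed_Msp h s).isCompact, ?_, msp_loc h s hs,
    fun N _ φ h' hh => ?_⟩
  · have h1 : IsConnected (Xt h) := by
      haveI : PathConnectedSpace (Xt h) := inferInstance
      haveI : ConnectedSpace (Xt h) := inferInstance
      exact isConnected_iff_connectedSpace.2 inferInstance
    have h2 := h1.image (prs s) (prs_cont s).continuousOn
    rw [prs_image h s hs] at h2
    exact isConnected_iff_connectedSpace.1 h2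
  · exact (xtHomeo h s hs φ h' hh).toHomotopyEquiv.simplyConnectedSpace

end Vale.Agent.P216.H539Z
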