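import Vale.Agent.P216.H126Z.A

/-!
# P216-B7, Z10: the path spaces `PZ` are compact
-/

set_option linter.all false

open Set
open scoped BoundedContinuousFunction

namespace Vale.Agent.P216.H539Z

open Vale.Agent.P216.H971Z (Lf PZ)

variable {M : Type} [MetricSpace M] [CompactSpace M]

/-- `PZ` is clopen in `P`. -/
theorem mem_PZ_of_close (h : C(M, Circle)) : ∃ δ > 0, ∀ (p p' : M × ℝ) (t : ℝ),
    ∀ w ∈ PZ h p p' t, ∀ w' ∈ PS.P p.1 p'.1 t, dist w w' < δ → w' ∈ PZ h p p' t := by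
  obtain ⟨δ, hδ, H⟩ := H126Z.exists_delta h
  refine ⟨δ, hδ, fun p p' t w hw w' hw' hd => ⟨hw', ?_⟩⟩
  exact H126Z.lf_near' (fun u => H _ _ ((BoundedContinuousFunction.dist_coe_le_dist u).trans_lt hd))
    w.continuous w'.continuous hw'.2.1 hw'.2.2 hw.1.2.1 hw.1.2.2 hw.2

theorem isCompact_PZ (h : C(M, Circle)) (p p' : M × ℝ) (t : ℝ) : IsCompact (PZ h p p' t) := by
  obtain ⟨δ, hδ, H⟩ := mem_PZ_of_close h
  have hP : IsCompact (PS.P p.1 p'.1 t) := PS.isCompact_P p.1 p'.1 t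
  refine hP.of_isClosed_subset ?_ fun w hw => hw.1
  refine isClosed_of_closure_subset fun w hw => ?_
  have hwP : w ∈ PS.P p.1 p'.1 t :=
    closure_minimal (fun w hw => hw.1) hP.isClosed hw
  obtain ⟨w', hw', hd⟩ := Metric.mem_closure_iff.1 hw δ hδ
  exact H p p' t w' hw' w hwP (by rwa [dist_comm])

end Vale.Agent.P216.H539Z
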