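import Vale.Agent.P216.E2L.Ext
import Vale.Agent.P216.H892.Fib

/-!
# P216-B7: the cohomology of the fibres below the first class of the base

`A R`, `R : ℝ`, the parts of the base, `X t` the total space, `O t` the model fibre.
If `H^(j+1)` of the base dies along `A R ⊆ A R'` and the total space has no cohomology, then
`H^j` of the fibres dies.
-/

set_option linter.all false

open Set

namespace Vale.Agent.P216.H539Z

open Sl PS E2L H892 D907

variable {k : Type} [Field k] {M E E' : Type} [PseudoMetricSpace M] [PseudoMetricSpace E]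
  [PseudoMetricSpace E']

section

variable {π : E → M} {A A' : Set M} {X X' : Set E} {p q m : ℕ}

/-- The last slot, with a shrinking base. -/
theorem kill0 (hπ : ∀ w w', dist (π w) (π w') ≤ dist w w') (hX : X' ⊆ X)
    (hN : NullB π A' X X' k 0) (hne : ∀ x ∈ A', ∃ w ∈ X', π w = x) (hAA : A ⊆ A') (hp : 1 ≤ p)
    (hA : ∀ c : List M → k, Nrm c → CocL A' p c → ExL A p c) :
    ∀ F : Bi k M E, BC π A' X p 0 F → ∃ G : List E → k, VV π p G ∧
      ∃ r > 0, ∀ l, l.length = p + 1 → SmL (X' ∩ π ⁻¹' A) r l → aw π p F l = dl G l := by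
  intro F hF
  obtain ⟨Y, hY, hd⟩ := exists_Y hN hF.n hF.e
  have hcN : Nrm fun xs => Y xs [] := hY []
  have hcc : CocL A' p fun xs => Y xs [] := by
    have h1 := dM_mem hd
    rw [map_sub] at h1
    have h2 := sub_mem (Zs_mono hX hF.m) h1
    rw [sub_sub_cancel, dM_dE] at h2
    obtain ⟨r, hr, h⟩ := h2
    refine ⟨r, hr, fun l hl hs => ?_⟩
    rcases l with _ | ⟨x, l⟩
    · simp at hl
    obtain ⟨w, hw, hx⟩ := hne x (hs.1 x (by simp))
    have h3 := h (x :: l) [w] hl rfl ⟨hs, ⟨fun y hy => ?_, fun y hy z hz => ?_⟩,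
      fun y hy z hz => ?_⟩
    · rw [dE_apply, dl_one] at h3
      exact h3
    · rw [List.mem_singleton.1 hy]; exact hw
    · rw [List.mem_singleton.1 hy, List.mem_singleton.1 hz, dist_self]; exact hr
    · rw [List.mem_singleton.1 hz, hx]
      exact hs.2 y hy x (by simp)
  obtain ⟨b, hbN, hb0, r, hr, hb⟩ := nrm_prim hcN (hcc.mono hAA) (hA _ hcN hcc)
  obtain ⟨r', hr', h'⟩ := aw_mem (q := 0) hπ (Zs_monoA hAA hd)
  refine ⟨fun l => b (l.map π), fun hp l hl hv => ?_, min r r', lt_min hr hr',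
    fun l hl hs => ?_⟩
  · rcases l with _ | ⟨w, _ | ⟨w', l⟩⟩
    · simp at hl
    · simp at hl
    · refine hbN _ fun hc => ?_
      rw [List.map_cons, List.map_cons, List.isChain_cons_cons] at hc
      exact hc.1 (hv w (by simp) w' (by simp))
  · have h1 := h' l (by omega) (hs.mono subset_rfl (min_le_right _ _))
    rw [map_sub] at h1
    have h3 : aw π p F l = aw π p (dE Y) l := sub_eq_zero.1 h1
    have h4 : aw π p (dE Y) l = Y (l.map π) [] := by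
      rw [aw_apply, List.take_of_length_le (by omega), dE_apply]
      obtain ⟨w, hw⟩ : ∃ w, l.drop p = [w] := List.length_eq_one_iff.1
        (by rw [List.length_drop]; omega)
      rw [hw, dl_one]
    rw [h3, h4, dl_map]
    refine hb _ (by rw [List.length_map]; omega) ⟨fun y hy => ?_, fun y hy z hz => ?_⟩
    · obtain ⟨w, hw, rfl⟩ := List.mem_map.1 hy
      exact (hs.1 w hw).2
    · obtain ⟨w, hw, rfl⟩ := List.mem_map.1 hy
      obtain ⟨w', hw', rfl⟩ := List.mem_map.1 hz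
      exact (hπ w w').trans_lt ((hs.2 w hw w' hw').trans_le (min_le_left _ _))

end

section

variable {π : E → M} {A A' : Set M} {X : ℝ → Set E} {m : ℕ}

/-- All the slots. -/
theorem killS (hX : Monotone X) (hπ : ∀ w w', dist (π w) (π w') ≤ dist w w') {t₀ : ℝ}
    (hne : ∀ t ≥ t₀, ∀ x ∈ A', ∃ w ∈ X t, π w = x) (hAA : A ⊆ A')
    (hA : ∀ c : List M → k, Nrm c → CocL A' (m + 1) c → ExL A (m + 1) c) : ∀ q p, 1 ≤ p →
    p + q = m + 1 → (∀ q' ≤ q, ∀ t > 0, ∃ T ≥ t, NullB π A' (X T) (X t) k q') →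
    ∀ t > 0, t₀ ≤ t → ∃ T ≥ t, ∀ F : Bi k M E, BC π A' (X T) p q F →
      ∃ G : List E → k, VV π p G ∧ ∃ r > 0, ∀ l, l.length = m + 2 →
        SmL (X t ∩ π ⁻¹' A) r l → aw π p F l = dl G l := by
  intro q
  induction q with
  | zero =>
    intro p hp hpq hN t ht ht₀
    obtain rfl : p = m + 1 := by omega
    obtain ⟨T, hT, h⟩ := hN 0 le_rfl t ht
    exact ⟨T, hT, kill0 hπ (hX hT) h (hne t ht₀) hAA hp hA⟩
  | succ q ih =>
    intro p hp hpq hN t ht ht₀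
    obtain ⟨T₁, hT₁, h⟩ := ih (p + 1) (by omega) (by omega) (fun q' hq' => hN q' (by omega)) t ht
      ht₀
    obtain ⟨T, hT, hN'⟩ := hN (q + 1) le_rfl T₁ (lt_of_lt_of_le ht hT₁)
    refine ⟨T, hT₁.trans hT, fun F hF => ?_⟩
    obtain ⟨F', hF', G, hG, r, hr, h1⟩ := slot_null hπ (hX hT) hN' F hF
    obtain ⟨G', hG', r', hr', h2⟩ := h F' hF'
    refine ⟨fun l => G l + -(-1 : k) ^ p * G' l, hG.add ((hG'.mono (Nat.le_succ p)).smul _),
      min r r', lt_min hr hr', fun l hl hs => ?_⟩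
    have e1 := h1 l (by omega) (hs.mono (inter_subset_inter (hX hT₁) (preimage_mono hAA))
      (min_le_left _ _))
    have e2 := h2 l hl (hs.mono subset_rfl (min_le_right _ _))
    rw [Sl.dl_add, dl_mul_left, e1, e2]
    ring

/-- **Extension of a family of fibre classes, with a shrinking base.** -/
theorem extA (hX : Monotone X) (hπ : ∀ w w', dist (π w) (π w') ≤ dist w w') {t₀ : ℝ}
    (hne : ∀ t ≥ t₀, ∀ x ∈ A', ∃ w ∈ X t, π w = x) (hAA : A ⊆ A')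
    (hA : ∀ c : List M → k, Nrm c → CocL A' (m + 2) c → ExL A (m + 2) c)
    (hN : ∀ q' ≤ m, ∀ t > 0, ∃ T ≥ t, NullB π A' (X T) (X t) k q') :
    ∀ t > 0, t₀ ≤ t → ∃ T ≥ t, ∀ V : M → List E → k, FamV π A' (X T) (m + 1) V →
      ∃ Z : List E → k, CocL (X t ∩ π ⁻¹' A) (m + 1) Z ∧ VE π (m + 1) Z (diagV π V) := by
  intro t ht ht₀
  obtain ⟨T, hT, h⟩ := killS (m := m + 1) hX hπ hne hAA hA m 2 (by omega) (by omega) hN t ht ht₀
  refine ⟨T, hT, fun V hV => ?_⟩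
  obtain ⟨W, F, hO, hW⟩ := hV.obs hπ
  obtain ⟨G, hG, r, hr, h1⟩ := h F hO.bc
  obtain ⟨r', hr', h2⟩ := hO.eq
  refine ⟨fun l => W l + -1 * G l, ⟨min r r', lt_min hr hr', fun l hl hs => ?_⟩,
    fun l hl hv => ?_⟩
  · rw [Sl.dl_add, dl_mul_left, h2 l (by omega) (hs.mono (inter_subset_inter (hX hT)
      (preimage_mono hAA)) (min_le_right _ _)), h1 l (by omega)
      (hs.mono subset_rfl (min_le_left _ _))]
    ring
  · show W l + -1 * G l = diagV π V l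
    rw [hG le_rfl l (by omega) hv, ← hW l (by omega) hv]
    ring

end

/-! ### The ladder -/

/-- The comparison of the fibres over `A` with the model `O`. -/
def D1 (π : E → M) (A : Set M) (X : ℝ → Set E) (O : ℝ → Set E') : Prop :=
  ∀ t > 0, ∃ s ≥ t, ∀ S ≥ s, ∃ T ≥ t, ∃ (φ : M → E → E') (ψ : M → E' → E),
    FibN π A (X T) (X t) (O S) (O s) φ ψ

/-- The transport of the fibres over `A` to the model `O`: compatible over `A`, and homotopic to
the identity on the fibre over `x₀` (`ι` the inclusion of the model). -/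
def D2 (π : E → M) (A : Set M) (X : ℝ → Set E) (O : ℝ → Set E') (x₀ : M) (ι : E' → E) : Prop :=
  ∀ t > 0, ∃ S ≥ t, ∃ φ : M → E → E', (∀ r > 0, ∃ δ > 0, ∀ x ∈ A, ∀ w ∈ nbh π (X t) x δ,
      φ x w ∈ O S ∧ ∀ w' ∈ nbh π (X t) x δ, dist w w' < δ → dist (φ x w) (φ x w') < r) ∧
    FibC π A (X t) (O S) φ ∧
    ∀ r > 0, ∃ δ > 0, CtgC (O S) (O t) δ r id fun v => φ x₀ (ι v)

/-- The transported family. -/
theorem famV_of {π : E → M} {A : Set M} {X : Set E} {O : Set E'} {φ : M → E → E'} {q : ℕ}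
    (hφ : ∀ r > 0, ∃ δ > 0, ∀ x ∈ A, ∀ w ∈ nbh π X x δ,
      φ x w ∈ O ∧ ∀ w' ∈ nbh π X x δ, dist w w' < δ → dist (φ x w) (φ x w') < r)
    (hC : FibC π A X O φ) {v0 : List E' → k} (hv : CocL O q v0) :
    FamV π A X q fun x l => v0 (l.map (φ x)) := by
  obtain ⟨ε₀, hε₀, h0⟩ := hv
  refine ⟨?_, ?_⟩
  · obtain ⟨δ, hδ, h⟩ := hφ ε₀ hε₀
    refine ⟨δ, hδ, fun x ws hw hD => ?_⟩
    have hxA : x ∈ A := hD.1.1 x (by simp)
    rw [dl_map]
    exact h0 _ (by rw [List.length_map]; exact hw)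
      (SmL.map' (Dom.nbh hD) fun w hw => h x hxA w hw)
  · obtain ⟨δ, hδ, h⟩ := hC ε₀ hε₀
    have key : ∀ x y : M, ∃ g : List E → k, ∀ ws, ws.length = q + 1 →
        Dom π A X δ [x, y] ws → v0 (ws.map (φ y)) - v0 (ws.map (φ x)) = dl g ws := by
      intro x y
      by_cases hc : x ∈ A ∧ y ∈ A ∧ dist x y < δ
      · obtain ⟨g, -, hg⟩ := ctg_chain (f := v0) (n := q) h0 (h x hc.1 y hc.2.1 hc.2.2)
        refine ⟨g, fun ws hw hD => hg ws hw ⟨fun w hw => ⟨⟨hD.2.1.1 w hw, ?_⟩,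
          ⟨hD.2.1.1 w hw, ?_⟩⟩, hD.2.1.2⟩⟩
        · exact hD.2.2 x (by simp) w hw
        · exact hD.2.2 y (by simp) w hw
      · exact ⟨fun _ => 0, fun ws hw hD => absurd ⟨hD.1.1 x (by simp), hD.1.1 y (by simp),
          hD.1.2 x (by simp) y (by simp)⟩ hc⟩
    choose g hg using key
    exact ⟨g, δ, hδ, hg⟩

section

variable {π : E → M} {A : ℝ → Set M} {X : ℝ → Set E} {O : ℝ → Set E'} {x₀ : M} {ι : E' → E}

/-- One step of the ladder. -/
theorem low_step (hX : Monotone X) (hO : Monotone O)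
    (hπ : ∀ w w', dist (π w) (π w') ≤ dist w w')
    (hne : ∀ R, ∃ t₀ > 0, ∀ t ≥ t₀, ∀ x ∈ A R, ∃ w ∈ X t, π w = x)
    (hA : Monotone A) (hreach : ∀ t > 0, ∃ R, ∀ w ∈ X t, π w ∈ A R)
    (hι : ∀ t > 0, ∀ v ∈ O t, ι v ∈ X t ∧ π (ι v) = x₀)
    (hιu : ∀ r > 0, ∃ δ > 0, ∀ v v', dist v v' < δ → dist (ι v) (ι v') < r)
    (h2 : ∀ R, D2 π (A R) X O x₀ ι) {m : ℕ}
    (hcon : ∀ t > 0, ∀ F : List E → k, CocL (X t) (m + 1) F → ExL (X t) (m + 1) F)
    (hZ : ∀ R, ∃ R' ≥ R, ∀ c : List M → k, Nrm c → CocL (A R') (m + 2) c → ExL (A R) (m + 2) c)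
    (hN : ∀ R, ∀ q' ≤ m, ∀ t > 0, ∃ T ≥ t, NullB π (A R) (X T) (X t) k q') :
    ∀ s > 0, ∃ S ≥ s, ∀ F : List E' → k, CocL (O S) (m + 1) F → ExL (O s) (m + 1) F := by
  intro s hs
  obtain ⟨R, hR⟩ := hreach s hs
  obtain ⟨R', hRR, hZ⟩ := hZ R
  obtain ⟨t₀, ht₀, hne⟩ := hne R'
  obtain ⟨T, hT, hext⟩ := extA (m := m) hX hπ hne (hA hRR) hZ (hN R') (max s t₀)
    (lt_max_of_lt_left hs) (le_max_right _ _)
  have hsT : s ≤ T := (le_max_left _ _).trans hT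
  obtain ⟨S, hS, φ, hφ, hC, hh⟩ := h2 R' T (lt_of_lt_of_le hs hsT)
  refine ⟨S, hsT.trans hS, fun F hF => ?_⟩
  obtain ⟨Z, hZc, hZV⟩ := hext _ (famV_of hφ hC hF)
  have hZs : CocL (X s) (m + 1) Z :=
    hZc.mono fun w hw => ⟨hX (le_max_left _ _) hw, hR w hw⟩
  obtain ⟨G, -, ε, hε, hG⟩ := hcon s hs Z hZs
  obtain ⟨ε₀, hε₀, h0⟩ := hF
  obtain ⟨δ, hδ, hh⟩ := hh ε₀ hε₀
  obtain ⟨g, -, hg⟩ := ctg_chain (f := F) (n := m + 1) h0 hh
  obtain ⟨δ', hδ', hu⟩ := hιu ε hε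
  refine ⟨fun l => G (l.map ι) - g l, fun h => by omega, min δ δ', lt_min hδ hδ',
    fun l hl hs' => ?_⟩
  have e1 : Z (l.map ι) = dl G (l.map ι) := by
    refine hG _ (by rw [List.length_map]; exact hl) ⟨fun w hw => ?_, fun w hw w' hw' => ?_⟩
    · obtain ⟨v, hv, rfl⟩ := List.mem_map.1 hw
      exact (hι s hs v (hs'.1 v hv)).1
    · obtain ⟨v, hv, rfl⟩ := List.mem_map.1 hw
      obtain ⟨v', hv', rfl⟩ := List.mem_map.1 hw'
      exact hu v v' ((hs'.2 v hv v' hv').trans_le (min_le_right _ _))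
  have e2 : Z (l.map ι) = F ((l.map ι).map (φ x₀)) := by
    rw [hZV (l.map ι) (by rw [List.length_map]; exact hl) (fun w hw w' hw' => ?_)]
    · rcases l with _ | ⟨v, l⟩
      · simp at hl
      · show F (((v :: l).map ι).map (φ (π (ι v)))) = _
        rw [(hι s hs v (hs'.1 v (by simp))).2]
    · obtain ⟨v, hv, rfl⟩ := List.mem_map.1 hw
      obtain ⟨v', hv', rfl⟩ := List.mem_map.1 hw'
      rw [(hι s hs v (hs'.1 v hv)).2, (hι s hs v' (hs'.1 v' hv')).2]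
  have e3 := hg l hl (hs'.mono (hO hsT) (min_le_left _ _))
  rw [List.map_id] at e3
  have e4 : (l.map ι).map (φ x₀) = l.map fun v => φ x₀ (ι v) := by
    rw [List.map_map]
    rfl
  rw [e4] at e2
  rw [dl_sub, dl_map, ← e1, ← e3, e2]
  ring

/-- **LOW.** -/
theorem low (hX : Monotone X) (hO : Monotone O) (hOc : ∀ t, IsCompact (O t))
    (hπ : ∀ w w', dist (π w) (π w') ≤ dist w w')
    (hne : ∀ R, ∃ t₀ > 0, ∀ t ≥ t₀, ∀ x ∈ A R, ∃ w ∈ X t, π w = x)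
    (hA : Monotone A) (hreach : ∀ t > 0, ∃ R, ∀ w ∈ X t, π w ∈ A R)
    (hι : ∀ t > 0, ∀ v ∈ O t, ι v ∈ X t ∧ π (ι v) = x₀)
    (hιu : ∀ r > 0, ∃ δ > 0, ∀ v v', dist v v' < δ → dist (ι v) (ι v') < r)
    (h1 : ∀ R, D1 π (A R) X O) (h2 : ∀ R, D2 π (A R) X O x₀ ι)
    (h0 : ∀ s > 0, ∃ S ≥ s, ∀ F : List E' → k, CocL (O S) 0 F → ∃ a : k, ∀ v ∈ O s, F [v] = a)
    (hcon : ∀ q, 1 ≤ q → ∀ t > 0, ∀ F : List E → k, CocL (X t) q F → ExL (X t) q F) {n : ℕ}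
    (hZ : ∀ j, 2 ≤ j → j ≤ n + 1 → ∀ R, ∃ R' ≥ R, ∀ c : List M → k, Nrm c → CocL (A R') j c →
      ExL (A R) j c) :
    (∀ j, 1 ≤ j → j ≤ n → ∀ s > 0, ∃ S ≥ s, ∀ F : List E' → k, CocL (O S) j F →
      ExL (O s) j F) ∧
    ∀ j ≤ n, ∀ R, ∀ t > 0, ∃ T ≥ t, NullB π (A R) (X T) (X t) k j := by
  have hB0 : ∀ R, ∀ t > 0, ∃ T ≥ t, NullB π (A R) (X T) (X t) k 0 := by
    intro R t ht
    obtain ⟨s, hs, h⟩ := h1 R t ht
    obtain ⟨S, hS, h0⟩ := h0 s (lt_of_lt_of_le ht hs)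
    obtain ⟨T, hT, φ, ψ, hf⟩ := h S hS
    exact ⟨T, hT, hf.nullB_zero h0⟩
  have hB : ∀ j, (∀ s > 0, ∃ S ≥ s, ∀ F : List E' → k, CocL (O S) j F → ExL (O s) j F) →
      ∀ R, ∀ t > 0, ∃ T ≥ t, NullB π (A R) (X T) (X t) k j := by
    intro j hj R t ht
    obtain ⟨s, hs, h⟩ := h1 R t ht
    obtain ⟨S, hS, h0⟩ := hj s (lt_of_lt_of_le ht hs)
    obtain ⟨T, hT, φ, ψ, hf⟩ := h S hS
    exact ⟨T, hT, hf.nullB (hOc s) h0⟩
  have key : ∀ j ≤ n, (∀ R, ∀ q' ≤ j, ∀ t > 0, ∃ T ≥ t, NullB π (A R) (X T) (X t) k q') ∧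
      (1 ≤ j → ∀ s > 0, ∃ S ≥ s, ∀ F : List E' → k, CocL (O S) j F → ExL (O s) j F) := by
    intro j
    induction j with
    | zero =>
      intro _
      refine ⟨fun R q' hq' => ?_, fun h => by omega⟩
      obtain rfl : q' = 0 := by omega
      exact hB0 R
    | succ m ih =>
      intro hm
      obtain ⟨ih, -⟩ := ih (by omega)
      have hs := low_step hX hO hπ hne hA hreach hι hιu h2 (m := m) (hcon (m + 1) (by omega))
        (hZ (m + 2) (by omega) (by omega)) ih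
      refine ⟨fun R q' hq' => ?_, fun _ => hs⟩
      rcases Nat.lt_or_ge q' (m + 1) with h | h
      · exact ih R q' (by omega)
      · obtain rfl : q' = m + 1 := by omega
        exact hB _ hs R
  exact ⟨fun j hj hjn => (key j hjn).2 hj, fun j hj R => (key j hj).1 R j le_rfl⟩

end

end Vale.Agent.P216.H539Z
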