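import Vale.Agent.P216.E2L.Ext

/-!
# P216-B7: transgression by double lists

`X t`, `t : ℝ`, is an increasing family of total spaces over `A`, `π : E → M`.
* `trans`: if the fibre cohomology dies in the degrees `< n`, `dl ζ = U ∘ π`, and
  `ζ - U (x :: ·)` is exact on the fibres, then `U` is exact on `A`;
* `ext`: a family of fibre classes of degree `m` extends over `A` if the fibre cohomology dies in
  the degrees `< m` and `H^(m+1)(A') → H^(m+1)(A)` is zero.
-/

set_option linter.all false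

open Set

namespace Vale.Agent.P216.H539Z

open Sl PS E2L

variable {k : Type} [Field k] {M E : Type}

theorem dl_append (xs : List M) : ∀ (f : List M → k) (ys : List M), dl f (xs ++ ys) =
    dl (fun l => f (l ++ ys)) xs + (-1 : k) ^ xs.length * dl (fun l => f (xs ++ l)) ys := by
  induction xs with
  | nil =>
    intro f ys
    rw [List.nil_append, dl_nil, List.length_nil, pow_zero, one_mul, zero_add]
    rfl
  | cons x xs ih =>
    intro f ys
    rw [List.cons_append, dl_cons, ih (fun l => f (x :: l)) ys, dl_cons, List.length_cons, pow_succ]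
    have e1 : (fun l => f (x :: l ++ ys)) = fun l => f (x :: (l ++ ys)) := rfl
    have e2 : (fun l => f (x :: xs ++ l)) = fun l => f (x :: (xs ++ l)) := rfl
    rw [e1, e2]
    ring

/-- `U (xs ++ π ws)` -/
def KU (π : E → M) (U : List M → k) : Bi k M E := fun xs ws => U (xs ++ ws.map π)

theorem KU_nrm {π : E → M} {U : List M → k} (hU : Nrm U) : NrmM (KU π U) := by
  intro ws xs hx
  refine hU _ fun h => hx ?_
  exact (List.isChain_append.1 h).1

theorem dM_KU {π : E → M} {U : List M → k} (xs : List M) (ws : List E) :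
    dM (KU π U) xs ws + (-1 : k) ^ xs.length * dE (KU π U) xs ws = dl U (xs ++ ws.map π) := by
  rw [dl_append, dM_apply, dE_apply]
  have e : dl (fun l => U (xs ++ l)) (ws.map π) = dl (fun l => U (xs ++ l.map π)) ws :=
    (dl_map (f := fun l => U (xs ++ l)) ..).symm
  rw [e]
  rfl

variable [PseudoMetricSpace M] [PseudoMetricSpace E]

section

variable {π : E → M} {A A' : Set M} {X X' X'' : Set E} {p q n : ℕ}

theorem dom_append (hπ : ∀ w w', dist (π w) (π w') ≤ dist w w') {r : ℝ} {xs : List M}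
    {ws : List E} (h : Dom π A X r xs ws) : SmL univ r (xs ++ ws.map π) := by
  refine ⟨fun _ _ => trivial, fun x hx y hy => ?_⟩
  rcases List.mem_append.1 hx with hx | hx <;> rcases List.mem_append.1 hy with hy | hy
  · exact h.1.2 x hx y hy
  · obtain ⟨w, hw, rfl⟩ := List.mem_map.1 hy
    exact h.2.2 x hx w hw
  · obtain ⟨w, hw, rfl⟩ := List.mem_map.1 hx
    rw [dist_comm]
    exact h.2.2 y hy w hw
  · obtain ⟨w, hw, rfl⟩ := List.mem_map.1 hx
    obtain ⟨w', hw', rfl⟩ := List.mem_map.1 hy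
    exact (hπ w w').trans_lt (h.2.1.2 w hw w' hw')

theorem KU_mem (hπ : ∀ w w', dist (π w) (π w') ≤ dist w w') {U : List M → k}
    (hc : CocL (univ : Set M) (n + 1) U) (hpq : p + q = n + 3) :
    dM (KU π U) + (-1 : k) ^ p • dE (KU π U) ∈ Zs π A X k p q := by
  obtain ⟨r, hr, h⟩ := hc
  refine ⟨r, hr, fun xs ws h1 h2 h3 => ?_⟩
  have h4 := dM_KU (π := π) (U := U) xs ws
  rw [h (xs ++ ws.map π) (by rw [List.length_append, List.length_map]; omega)
    (dom_append hπ h3), h1] at h4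
  exact h4

/-- The next bicochain. -/
theorem next (hπ : ∀ w w', dist (π w) (π w') ≤ dist w w') {U : List M → k} (hU : Nrm U)
    (hc : CocL (univ : Set M) (n + 1) U) (hpq : p + q + 1 = n) {F Y : Bi k M E} {σ : k}
    (hY : NrmM Y) (hFY : F - dE Y ∈ Zs π A X k (p + 1) (q + 2))
    (hF : dM F - σ • dE (KU π U) ∈ Zs π A X k (p + 2) (q + 2)) :
    NrmM (dM Y - σ • KU π U) ∧ dE (dM Y - σ • KU π U) ∈ Zs π A X k (p + 2) (q + 2) ∧
      dM (dM Y - σ • KU π U) - (σ * (-1) ^ (p + 3)) • dE (KU π U) ∈ Zs π A X k (p + 3) (q + 1) := by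
  refine ⟨hY.dM.sub ((KU_nrm hU).smul σ), ?_, ?_⟩
  · have h1 := dM_mem hFY
    have h2 := sub_mem hF h1
    have e : dE (dM Y - σ • KU π U) = dM F - σ • dE (KU π U) - dM (F - dE Y) := by
      rw [map_sub, map_sub, map_smul, dM_dE]
      abel
    rw [e]
    exact h2
  · have h1 := KU_mem (A := A) (X := X) (p := p + 3) (q := q + 1) hπ hc (by omega)
    have h2 := Submodule.smul_mem _ (-σ) h1
    have e : dM (dM Y - σ • KU π U) - (σ * (-1) ^ (p + 3)) • dE (KU π U) =
        -σ • (dM (KU π U) + (-1 : k) ^ (p + 3) • dE (KU π U)) := by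
      rw [map_sub, map_smul, dM_dM, smul_add, smul_smul, mul_smul, neg_mul, neg_smul, neg_smul,
        mul_smul]
      abel
    rw [e]
    exact h2

/-- The last step. -/
theorem last (hne : ∀ x ∈ A, ∃ w ∈ X', π w = x) (hX : X' ⊆ X)
    (hN : NullB π A X X' k 0) {U : List M → k} {F : Bi k M E} {σ : k} (hσ : σ ≠ 0)
    (hFn : NrmM F) (hFe : dE F ∈ Zs π A X k (n + 1) 2)
    (hF : dM F - σ • dE (KU π U) ∈ Zs π A X k (n + 2) 1) : ExL A (n + 1) U := by
  obtain ⟨Y, hY, hd⟩ := exists_Y hN hFn hFe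
  have h1 := dM_mem hd
  have h2 := sub_mem (Zs_mono hX hF) h1
  obtain ⟨r, hr, h⟩ := h2
  refine ⟨fun xs => σ⁻¹ * Y xs [], fun h0 => by omega, r, hr, fun l hl hs => ?_⟩
  rcases l with _ | ⟨x, l⟩
  · simp at hl
  obtain ⟨w, hw, hx⟩ := hne x (hs.1 x (by simp))
  have h3 := h (x :: l) [w] (by omega) rfl ⟨hs, ⟨fun y hy => ?_, fun y hy z hz => ?_⟩,
    fun y hy z hz => ?_⟩
  · have e : dM F - σ • dE (KU π U) - dM (F - dE Y) = dE (dM Y) - σ • dE (KU π U) := by
      rw [map_sub, dM_dE]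
      abel
    rw [e] at h3
    have e1 : (dE (dM Y) - σ • dE (KU π U)) (x :: l) [w] =
        dE (dM Y) (x :: l) [w] - σ * dE (KU π U) (x :: l) [w] := rfl
    rw [e1, dE_apply, dl_one, dE_apply, dl_one] at h3
    have e2 : KU π U (x :: l) [] = U (x :: l) := by
      show U (x :: l ++ List.map π []) = U (x :: l)
      rw [List.map_nil, List.append_nil]
    rw [e2] at h3
    rw [dl_mul_left]
    have e3 : dl (fun xs => Y xs []) (x :: l) = dM Y (x :: l) [] := rfl
    rw [e3]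
    field_simp
    linear_combination -h3
  · rw [List.mem_singleton.1 hy]; exact hw
  · rw [List.mem_singleton.1 hy, List.mem_singleton.1 hz, dist_self]; exact hr
  · rw [List.mem_singleton.1 hz, hx]
    exact hs.2 y hy x (by simp)

end

section

variable {π : E → M} {A : Set M} {X : ℝ → Set E} {n : ℕ}

/-- The induction. -/
theorem core (hX : Monotone X) (hπ : ∀ w w', dist (π w) (π w') ≤ dist w w')
    (hne : ∀ t > 0, ∀ x ∈ A, ∃ w ∈ X t, π w = x) {U : List M → k} (hU : Nrm U)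
    (hc : CocL (univ : Set M) (n + 1) U) : ∀ q p, p + q = n →
    (∀ q' ≤ q, ∀ t > 0, ∃ T ≥ t, NullB π A (X T) (X t) k q') → ∀ t > 0, ∃ T ≥ t,
    ∀ (F : Bi k M E) (σ : k), σ ≠ 0 → NrmM F → dE F ∈ Zs π A (X T) k (p + 1) (q + 2) →
      dM F - σ • dE (KU π U) ∈ Zs π A (X T) k (p + 2) (q + 1) → ExL A (n + 1) U := by
  intro q
  induction q with
  | zero =>
    intro p hp hN t ht
    obtain rfl : p = n := by omega
    obtain ⟨T, hT, h⟩ := hN 0 le_rfl t ht
    exact ⟨T, hT, fun F σ hσ h1 h2 h3 => last (hne t ht) (hX hT) h hσ h1 h2 h3⟩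
  | succ q ih =>
    intro p hp hN t ht
    obtain ⟨T₁, hT₁, h⟩ := ih (p + 1) (by omega) (fun q' hq' => hN q' (by omega)) t ht
    obtain ⟨T, hT, hN'⟩ := hN (q + 1) le_rfl T₁ (lt_of_lt_of_le ht hT₁)
    refine ⟨T, hT₁.trans hT, fun F σ hσ h1 h2 h3 => ?_⟩
    obtain ⟨Y, hY, hd⟩ := exists_Y hN' h1 h2
    obtain ⟨a1, a2, a3⟩ := next (A := A) (X := X T₁) (p := p) (q := q) hπ hU hc (by omega) hY hd
      (Zs_mono (hX hT) h3)
    exact h _ (σ * (-1) ^ (p + 3)) (mul_ne_zero hσ (pow_ne_zero _ (by simp))) a1 a2 a3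

/-- **Transgression.** -/
theorem trans (hX : Monotone X) (hπ : ∀ w w', dist (π w) (π w') ≤ dist w w')
    (hne : ∀ t > 0, ∀ x ∈ A, ∃ w ∈ X t, π w = x) (hn : 1 ≤ n)
    (hN : ∀ q < n, ∀ t > 0, ∃ T ≥ t, NullB π A (X T) (X t) k q)
    {U : List M → k} (hU : Nrm U) (hc : CocL (univ : Set M) (n + 1) U)
    (hz : ∀ t > 0, ∃ (ζ : List E → k) (Y : M → List E → k), ∃ r > 0,
      ∀ x ws, ws.length = n + 1 → Dom π A (X t) r [x] ws →
        ζ ws - U (x :: ws.map π) = dl (Y x) ws) : ExL A (n + 1) U := by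
  obtain ⟨q, rfl⟩ : ∃ q, n = q + 1 := ⟨n - 1, by omega⟩
  obtain ⟨T, hT, h⟩ := core (k := k) (π := π) (A := A) (X := X) hX hπ hne hU hc q 1 (by omega)
    (fun q' hq' => hN q' (by omega)) 1 one_pos
  obtain ⟨ζ, Y, r, hr, hz⟩ := hz T (lt_of_lt_of_le one_pos hT)
  set V : M → List E → k := fun x ws => ζ ws - U (x :: ws.map π) with hV
  have hY : NrmM (ten (one0 k) Y) := ten_nrm one0_nrm Y
  have hFY : ten (one0 k) V - dE (ten (one0 k) Y) ∈ Zs π A (X T) k (0 + 1) (q + 2) := by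
    refine ⟨r, hr, fun xs ws h1 h2 h3 => ?_⟩
    obtain ⟨x, rfl⟩ := List.length_eq_one_iff.1 h1
    have e1 := hz x ws (by omega) h3
    have e2 : dE (ten (one0 k) Y) [x] ws = one0 k [x] * dl (Y x) ws := dE_ten_cons _ _ _ _ _
    show one0 k [x] * V x ws - dE (ten (one0 k) Y) [x] ws = 0
    rw [e2, ← e1]
    ring
  have hF : dM (ten (one0 k) V) - (1 : k) • dE (KU π U) ∈ Zs π A (X T) k (0 + 2) (q + 2) := by
    obtain ⟨r', hr', h'⟩ := KU_mem (A := A) (X := X T) (k := k) (p := 2) (q := q + 2) hπ hc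
      (by omega)
    refine ⟨r', hr', fun xs ws h1 h2 h3 => ?_⟩
    obtain ⟨x, y, rfl⟩ := List.length_eq_two.1 h1
    have e1 := h' [x, y] ws rfl h2 h3
    have e2 : (dM (KU π U) + (-1 : k) ^ 2 • dE (KU π U)) [x, y] ws =
        dM (KU π U) [x, y] ws + (-1 : k) ^ 2 * dE (KU π U) [x, y] ws := rfl
    have e3 : dM (KU π U) [x, y] ws = U (y :: ws.map π) - U (x :: ws.map π) + 0 := by
      rw [dM_cons, dM_apply, dl_one]
      show U ([y] ++ ws.map π) - U ([x] ++ ws.map π) = _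
      rw [add_zero]
      rfl
    have e4 : dl (one0 k) [x, y] = 0 := by
      rw [dl_cons, dl_one]
      show (1 : k) - 1 = 0
      exact sub_self _
    show dM (ten (one0 k) V) [x, y] ws - 1 * dE (KU π U) [x, y] ws = 0
    rw [dM_ten, e4]
    rw [e2, e3] at e1
    show 0 * V x ws + 1 * ((ζ ws - U (y :: ws.map π)) - (ζ ws - U (x :: ws.map π))) -
      1 * dE (KU π U) [x, y] ws = 0
    linear_combination -e1
  obtain ⟨a1, a2, a3⟩ := next (A := A) (X := X T) (p := 0) (q := q) (n := q + 1) hπ hU hc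
    (by omega) hY hFY hF
  exact h _ _ (mul_ne_zero one_ne_zero (pow_ne_zero _ (by simp))) a1 a2 a3

end

end Vale.Agent.P216.H539Z
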